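import Vale.Agent.P038.Defs
import Mathlib

/-!
# Seymour's second neighbourhood conjecture

Self-contained proof with cardinalities. `R D a z` means `z` is in the closed out-neighbourhood
of `a`.
-/

namespace Vale.Agent.P038.H433

open Finset

section basic

variable {V : Type*} [Fintype V]

/-- `z ∈ N[a]`. -/
def R (D : OGraph V) (a z : V) : Prop := z = a ∨ D.arc a z

theorem R_refl (D : OGraph V) (a : V) : R D a a := Or.inl rfl

theorem R_antisymm {D : OGraph V} {a b : V} (h : R D a b) (h' : R D b a) : a = b := by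
  rcases h with h | h
  · exact h.symm
  · rcases h' with h' | h'
    · exact h'
    · exact absurd h' (D.asymm _ _ h)

open Classical in
/-- The closed out-neighbourhood of a set. -/
noncomputable def cl (D : OGraph V) (S : Finset V) : Finset V :=
  Finset.univ.filter fun z => ∃ y ∈ S, R D y z

theorem mem_cl {D : OGraph V} {S : Finset V} {z : V} :
    z ∈ cl D S ↔ ∃ y ∈ S, R D y z := by
  classical
  simp [cl]

theorem subset_cl (D : OGraph V) (S : Finset V) : S ⊆ cl D S := fun z hz =>
  mem_cl.2 ⟨z, hz, R_refl D z⟩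

theorem cl_mono {D : OGraph V} {S T : Finset V} (h : S ⊆ T) : cl D S ⊆ cl D T := fun z hz => by
  obtain ⟨y, hy, hr⟩ := mem_cl.1 hz
  exact mem_cl.2 ⟨y, h hy, hr⟩

/-- `c(S) = |N[S]| - |S|`. -/
noncomputable def c (D : OGraph V) (S : Finset V) : ℤ := ((cl D S).card : ℤ) - (S.card : ℤ)

variable [DecidableEq V]

theorem cl_union (D : OGraph V) (S T : Finset V) : cl D (S ∪ T) = cl D S ∪ cl D T := by
  ext z
  simp only [mem_cl, mem_union]
  constructor
  · rintro ⟨y, hy | hy, hr⟩
    · exact Or.inl ⟨y, hy, hr⟩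
    · exact Or.inr ⟨y, hy, hr⟩
  · rintro (⟨y, hy, hr⟩ | ⟨y, hy, hr⟩)
    · exact ⟨y, Or.inl hy, hr⟩
    · exact ⟨y, Or.inr hy, hr⟩

theorem submod (D : OGraph V) (S T : Finset V) :
    c D (S ∪ T) + c D (S ∩ T) ≤ c D S + c D T := by
  have h1 : (cl D (S ∪ T)).card + (cl D (S ∩ T)).card ≤ (cl D S).card + (cl D T).card := by
    rw [cl_union, ← card_union_add_card_inter (cl D S) (cl D T)]
    refine Nat.add_le_add_left (card_le_card ?_) _
    intro z hz
    exact mem_inter.2 ⟨cl_mono inter_subset_left hz, cl_mono inter_subset_right hz⟩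
  have h2 := card_union_add_card_inter S T
  unfold c
  have h1' : ((cl D (S ∪ T)).card : ℤ) + ((cl D (S ∩ T)).card : ℤ)
      ≤ ((cl D S).card : ℤ) + ((cl D T).card : ℤ) := by exact_mod_cast h1
  have h2' : ((S ∪ T).card : ℤ) + ((S ∩ T).card : ℤ) = (S.card : ℤ) + (T.card : ℤ) := by
    exact_mod_cast h2
  linarith

theorem c_eq_card (D : OGraph V) (S : Finset V) : c D S = ((cl D S \ S).card : ℤ) := by
  unfold c
  rw [card_sdiff_of_subset (subset_cl D S), Nat.cast_sub (card_le_card (subset_cl D S))]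

theorem c_eq_sum (D : OGraph V) (S : Finset V) :
    c D S = ∑ z : V, if z ∈ cl D S ∧ z ∉ S then (1 : ℤ) else 0 := by
  rw [c_eq_card, Finset.sum_boole]
  congr 2
  ext z
  simp

theorem c_nonneg (D : OGraph V) (S : Finset V) : 0 ≤ c D S := by
  rw [c_eq_card]
  positivity

end basic

section arcmin

variable {V : Type*} [Fintype V]

/-- A counterexample. -/
def Bad (D : OGraph V) : Prop := ∀ v, (N2 D v).card < (N1 D v).card

/-- The number of arcs. -/
noncomputable def arcs (D : OGraph V) : ℕ := ∑ v : V, (N1 D v).card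

/-- A counterexample with the fewest arcs. -/
def ArcMin (D : OGraph V) : Prop := Bad D ∧ ∀ D' : OGraph V, Bad D' → arcs D ≤ arcs D'

theorem exists_arcMin {D : OGraph V} (h : Bad D) : ∃ D' : OGraph V, ArcMin D' := by
  classical
  obtain ⟨m, hm⟩ : ∃ m, m = Nat.find (p := fun m => ∃ D' : OGraph V, Bad D' ∧ arcs D' = m)
      ⟨arcs D, D, h, rfl⟩ := ⟨_, rfl⟩
  have hs := Nat.find_spec (p := fun m => ∃ D' : OGraph V, Bad D' ∧ arcs D' = m)
      ⟨arcs D, D, h, rfl⟩
  obtain ⟨D', hD', he⟩ := hs
  refine ⟨D', hD', fun D'' h'' => ?_⟩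
  rw [he]
  exact Nat.find_min' _ ⟨D'', h'', rfl⟩

variable [DecidableEq V]

/-- Delete the arcs from `X` to `Z`. -/
def del (D : OGraph V) (X Z : Finset V) : OGraph V where
  arc y z := D.arc y z ∧ ¬ (y ∈ X ∧ z ∈ Z)
  loopless v h := D.loopless v h.1
  asymm u v h h' := D.asymm u v h.1 h'.1

/-- The ball of radius two without its centre. -/
theorem disj12 (D : OGraph V) (v : V) : Disjoint (N1 D v) (N2 D v) := by
  rw [Finset.disjoint_left]
  intro z h1 h2
  exact (mem_N2.1 h2).2.1 (mem_N1.1 h1)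

theorem ball_card (D : OGraph V) (v : V) :
    (N1 D v ∪ N2 D v).card = (N1 D v).card + (N2 D v).card :=
  card_union_of_disjoint (disj12 D v)

theorem mem_ball {D : OGraph V} {v z : V} :
    z ∈ N1 D v ∪ N2 D v ↔ z ≠ v ∧ (D.arc v z ∨ ∃ u, D.arc v u ∧ D.arc u z) := by
  rw [mem_union, mem_N1, mem_N2]
  constructor
  · rintro (h | ⟨h1, h2, h3⟩)
    · refine ⟨?_, Or.inl h⟩
      rintro rfl
      exact D.loopless _ h
    · exact ⟨h1, Or.inr h3⟩
  · rintro ⟨h1, h | h⟩
    · exact Or.inl h
    · by_cases hz : D.arc v z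
      · exact Or.inl hz
      · exact Or.inr ⟨h1, hz, h⟩

theorem G_strict {D : OGraph V} (hD : ArcMin D) (X : Finset V) (hX : cl D X ≠ X) :
    c D (cl D X) < c D X := by
  classical
  set L : Finset V := cl D X \ X with hL
  have hXcl := subset_cl D X
  have hLne : L.Nonempty := by
    rw [hL, sdiff_nonempty]
    intro h
    exact hX (Subset.antisymm h hXcl)
  by_contra hcon
  push Not at hcon
  -- the function d
  let d : Finset V → ℤ := fun T => ((cl D T \ X).card : ℤ) - 2 * (T.card : ℤ)
  have hd0 : d ∅ = 0 := by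
    have : cl D (∅ : Finset V) = ∅ := by
      ext z
      simp [mem_cl]
    simp [d, this]
  have hclL : cl D L \ X = cl D (cl D X) \ X := by
    have : cl D X = X ∪ L := by
      rw [hL, union_sdiff_of_subset hXcl]
    ext z
    simp only [mem_sdiff]
    constructor
    · rintro ⟨h1, h2⟩
      exact ⟨cl_mono (by rw [hL]; exact sdiff_subset) h1, h2⟩
    · rintro ⟨h1, h2⟩
      refine ⟨?_, h2⟩
      rw [this, cl_union] at h1
      rcases mem_union.1 h1 with h | h
      · exact subset_cl D L (by rw [hL]; exact mem_sdiff.2 ⟨h, h2⟩)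
      · exact h
  have hdL : 0 ≤ d L := by
    have h1 : ((cl D (cl D X) \ X).card : ℤ) = (cl D (cl D X)).card - (X.card : ℤ) := by
      rw [card_sdiff_of_subset (hXcl.trans (subset_cl D _)),
        Nat.cast_sub (card_le_card (hXcl.trans (subset_cl D _)))]
    have h2 : (L.card : ℤ) = (cl D X).card - (X.card : ℤ) := by
      rw [hL, card_sdiff_of_subset hXcl, Nat.cast_sub (card_le_card hXcl)]
    have h3 : d L = ((cl D L \ X).card : ℤ) - 2 * (L.card : ℤ) := rfl
    rw [h3, hclL, h1, h2]
    unfold c at hcon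
    linarith
  obtain ⟨T, hTL, hTne, hTmin⟩ : ∃ T, T ⊆ L ∧ T ≠ L ∧ ∀ T', T' ⊆ L → d T ≤ d T' := by
    obtain ⟨T, hT, hmin⟩ := exists_min_image L.powerset d ⟨∅, by simp⟩
    by_cases hTL : T = L
    · refine ⟨∅, by simp, ?_, ?_⟩
      · intro h
        rw [← h] at hLne
        exact absurd hLne (by simp)
      · intro T' hT'
        have := hmin T' (mem_powerset.2 hT')
        rw [hTL] at this
        rw [hd0]
        linarith
    · exact ⟨T, mem_powerset.1 hT, hTL, fun T' hT' => hmin T' (mem_powerset.2 hT')⟩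
  set Z : Finset V := L \ T with hZ
  have hZne : Z.Nonempty := by
    rw [hZ, sdiff_nonempty]
    intro h
    exact hTne (Subset.antisymm hTL h)
  let D' : OGraph V := del D X Z
  have harc : ∀ y z, D'.arc y z ↔ D.arc y z ∧ ¬ (y ∈ X ∧ z ∈ Z) := fun y z => Iff.rfl
  -- D' is bad
  have hball : ∀ v, N1 D' v ∪ N2 D' v ⊆ N1 D v ∪ N2 D v := by
    intro v z hz
    rw [mem_ball] at hz ⊢
    obtain ⟨h1, h2⟩ := hz
    refine ⟨h1, ?_⟩
    rcases h2 with h | ⟨u, hu, hu'⟩
    · exact Or.inl h.1
    · exact Or.inr ⟨u, hu.1, hu'.1⟩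
  have hbad : Bad D' := by
    intro y
    by_cases hy : y ∈ X
    · set Dy : Finset V := N1 D y ∩ Z with hDy
      have hN1 : N1 D' y = N1 D y \ Dy := by
        ext z
        rw [mem_N1, harc, hDy]
        simp only [mem_sdiff, mem_inter, mem_N1]
        tauto
      have hDyL : Dy ⊆ L := (inter_subset_right.trans sdiff_subset)
      have hdisj : Disjoint T Dy := by
        rw [Finset.disjoint_left]
        intro z hz hz'
        exact (mem_sdiff.1 (mem_inter.1 hz').2).2 hz
      have hN1c : (N1 D' y).card + Dy.card = (N1 D y).card := by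
        rw [hN1]
        exact card_sdiff_add_card_eq_card inter_subset_left
      set E : Finset V := (cl D Dy \ cl D T) \ X with hE
      have hEc : 2 * (Dy.card : ℤ) ≤ (E.card : ℤ) := by
        have h1 := hTmin (T ∪ Dy) (union_subset hTL hDyL)
        have h2 : cl D (T ∪ Dy) \ X = (cl D T \ X) ∪ E := by
          rw [cl_union, hE]
          ext z
          simp only [mem_sdiff, mem_union]
          tauto
        have h3 : Disjoint (cl D T \ X) E := by
          rw [Finset.disjoint_left]
          intro z hz hz'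
          exact (mem_sdiff.1 (mem_sdiff.1 hz').1).2 (mem_sdiff.1 hz).1
        have h4 : d (T ∪ Dy) = ((cl D (T ∪ Dy) \ X).card : ℤ) - 2 * ((T ∪ Dy).card : ℤ) := rfl
        have h5 : d T = ((cl D T \ X).card : ℤ) - 2 * (T.card : ℤ) := rfl
        rw [h4, h5, h2, card_union_of_disjoint h3, card_union_of_disjoint hdisj] at h1
        push_cast at h1
        linarith
      -- new ball is inside X ∪ cl T
      have hnew : ∀ z, z ∈ N1 D' y ∪ N2 D' y → z ∈ X ∨ z ∈ cl D T := by
        have key : ∀ u z, u ∈ X → D'.arc u z → z ∈ X ∨ z ∈ T := by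
          intro u z hu huz
          by_cases hzX : z ∈ X
          · exact Or.inl hzX
          · right
            have hzL : z ∈ L := by
              rw [hL]
              exact mem_sdiff.2 ⟨mem_cl.2 ⟨u, hu, Or.inr huz.1⟩, hzX⟩
            by_contra hzT
            exact huz.2 ⟨hu, mem_sdiff.2 ⟨hzL, hzT⟩⟩
        intro z hz
        rw [mem_ball] at hz
        obtain ⟨-, h | ⟨u, hu, hu'⟩⟩ := hz
        · rcases key y z hy h with h' | h'
          · exact Or.inl h'
          · exact Or.inr (subset_cl D T h')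
        · rcases key y u hy hu with h' | h'
          · rcases key u z h' hu' with h'' | h''
            · exact Or.inl h''
            · exact Or.inr (subset_cl D T h'')
          · exact Or.inr (mem_cl.2 ⟨u, h', Or.inr hu'.1⟩)
      have hEball : E ⊆ N1 D y ∪ N2 D y := by
        intro z hz
        rw [hE] at hz
        obtain ⟨h1, h2⟩ := mem_sdiff.1 hz
        obtain ⟨h3, -⟩ := mem_sdiff.1 h1
        obtain ⟨u, hu, hr⟩ := mem_cl.1 h3
        have hu1 : D.arc y u := mem_N1.1 (mem_inter.1 hu).1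
        rw [mem_ball]
        refine ⟨?_, ?_⟩
        · rintro rfl
          exact h2 hy
        · rcases hr with rfl | hr
          · exact Or.inl hu1
          · exact Or.inr ⟨u, hu1, hr⟩
      have hdisj2 : Disjoint (N1 D' y ∪ N2 D' y) E := by
        rw [Finset.disjoint_left]
        intro z hz hz'
        obtain ⟨h1, h2⟩ := mem_sdiff.1 hz'
        obtain ⟨-, h3⟩ := mem_sdiff.1 h1
        rcases hnew z hz with h | h
        · exact h2 h
        · exact h3 h
      have hcard : (N1 D' y ∪ N2 D' y).card + E.card ≤ (N1 D y ∪ N2 D y).card := by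
        rw [← card_union_of_disjoint hdisj2]
        exact card_le_card (union_subset (hball y) hEball)
      rw [ball_card, ball_card] at hcard
      have hb := hD.1 y
      omega
    · have hN1 : N1 D' y = N1 D y := by
        ext z
        rw [mem_N1, harc, mem_N1]
        tauto
      have h1 := card_le_card (hball y)
      rw [ball_card, ball_card, hN1] at h1
      have hb := hD.1 y
      rw [hN1]
      omega
  have hle := hD.2 D' hbad
  have hlt : arcs D' < arcs D := by
    unfold arcs
    obtain ⟨z, hz⟩ := hZne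
    obtain ⟨hzL, hzT⟩ := mem_sdiff.1 hz
    obtain ⟨hzc, hzX⟩ := mem_sdiff.1 hzL
    obtain ⟨y, hy, hr⟩ := mem_cl.1 hzc
    have hyz : D.arc y z := by
      rcases hr with rfl | hr
      · exact absurd hy hzX
      · exact hr
    refine Finset.sum_lt_sum (fun v _ => card_le_card ?_) ⟨y, mem_univ _, card_lt_card ?_⟩
    · intro u hu
      exact mem_N1.2 (mem_N1.1 hu).1
    · rw [Finset.ssubset_iff_subset_ne]
      refine ⟨fun u hu => mem_N1.2 (mem_N1.1 hu).1, ?_⟩
      intro h
      have : z ∈ N1 D' y := by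
        rw [h]
        exact mem_N1.2 hyz
      exact (mem_N1.1 this).2 ⟨hy, hz⟩
  omega

theorem G_le {D : OGraph V} (hD : ArcMin D) (X : Finset V) :
    c D (cl D X) ≤ c D X := by
  by_cases h : cl D X = X
  · rw [h]
  · exact (G_strict hD X h).le

end arcmin


section pairs

variable {V : Type*} [Fintype V]

/-- Outer pairs. -/
structure Pair (D : OGraph V) (B C : V → Finset V) : Prop where
  hB : ∀ a z, R D a z → z ∈ B a
  hC : ∀ a z, R D a z → z ∈ C a
  hBC : ∀ a x, x ∈ B a → a ∈ C x → a = x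

/-- The cost. -/
noncomputable def o (D : OGraph V) (B C : V → Finset V) : ℤ :=
  (∑ a : V, c D (B a)) + ∑ a : V, c D (C a)

open Classical in
/-- `B^_a`. -/
noncomputable def Bh (C : V → Finset V) (a : V) : Finset V :=
  Finset.univ.filter fun x => x = a ∨ a ∉ C x

open Classical in
/-- Intersection of `F_s` over `s` with `a ∈ N[s]`. -/
noncomputable def cap (D : OGraph V) (F : V → Finset V) (a : V) : Finset V :=
  Finset.univ.filter fun x => ∀ s, R D s a → x ∈ F s

theorem mem_Bh {C : V → Finset V} {a x : V} : x ∈ Bh C a ↔ x = a ∨ a ∉ C x := by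
  classical
  simp [Bh]

theorem mem_cap {D : OGraph V} {F : V → Finset V} {a x : V} :
    x ∈ cap D F a ↔ ∀ s, R D s a → x ∈ F s := by
  classical
  simp [cap]

theorem exists_minPair (D : OGraph V) :
    ∃ B C, Pair D B C ∧ ∀ B' C', Pair D B' C' → o D B C ≤ o D B' C' := by
  classical
  have hne : (Finset.univ.filter fun p : (V → Finset V) × (V → Finset V) =>
      Pair D p.1 p.2).Nonempty := by
    refine ⟨(fun a => cl D {a}, fun a => cl D {a}), ?_⟩
    rw [mem_filter]
    refine ⟨mem_univ _, ?_, ?_, ?_⟩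
    · intro a z h
      exact mem_cl.2 ⟨a, mem_singleton_self a, h⟩
    · intro a z h
      exact mem_cl.2 ⟨a, mem_singleton_self a, h⟩
    · intro a x h1 h2
      obtain ⟨y, hy, hr⟩ := mem_cl.1 h1
      obtain ⟨y', hy', hr'⟩ := mem_cl.1 h2
      rw [mem_singleton] at hy hy'
      subst hy
      subst hy'
      exact R_antisymm hr hr'
  obtain ⟨p, hp, hmin⟩ := exists_min_image _ (fun p => o D p.1 p.2) hne
  exact ⟨p.1, p.2, (mem_filter.1 hp).2, fun B' C' h =>
    hmin (B', C') (mem_filter.2 ⟨mem_univ _, h⟩)⟩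

variable {D : OGraph V} {B C : V → Finset V}

theorem Pair.sub_Bh (h : Pair D B C) (a : V) : B a ⊆ Bh C a := by
  intro x hx
  rw [mem_Bh]
  by_cases h1 : a ∈ C x
  · exact Or.inl (h.hBC a x hx h1).symm
  · exact Or.inr h1

theorem Pair.self_Bh (h : Pair D B C) {a s : V} (hs : R D s a) : a ∈ Bh C s :=
  h.sub_Bh s (h.hB s a hs)

theorem Pair.self_cap (h : Pair D B C) (a : V) : a ∈ cap D (Bh C) a :=
  mem_cap.2 fun _ hs => h.self_Bh hs

/-- (0). -/
theorem Pair.feas (h : Pair D B C) {a y : V} (hy : y ∈ cl D (cap D (Bh C) a))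
    (ha : a ∈ cl D (cap D C y)) : a = y := by
  obtain ⟨x, hx, hxy⟩ := mem_cl.1 hy
  obtain ⟨z, hz, hza⟩ := mem_cl.1 ha
  have h1 : x ∈ Bh C z := mem_cap.1 hx z hza
  have h2 : z ∈ C x := mem_cap.1 hz x hxy
  have h3 : x = z := by
    rcases mem_Bh.1 h1 with h1 | h1
    · exact h1
    · exact absurd h2 h1
  subst h3
  have h4 : x ∈ Bh C a := mem_cap.1 hx a (R_refl D a)
  have h5 : a ∈ C x := h.hC x a hza
  have h6 : x = a := by
    rcases mem_Bh.1 h4 with h4 | h4
    · exact h4
    · exact absurd h5 h4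
  subst h6
  have h7 : x ∈ C y := mem_cap.1 hz y (R_refl D y)
  exact h.hBC x y (h.hB x y hxy) h7

variable [DecidableEq V]

omit [Fintype V] [DecidableEq V] in
theorem ite4 {p q r s : Prop} [Decidable p] [Decidable q] [Decidable r] [Decidable s]
    (h1 : ¬ (p ∧ q)) (h2 : p → r ∨ s) (h3 : q → r ∨ s) :
    (if p then (1 : ℤ) else 0) + (if q then (1 : ℤ) else 0) ≤
      (if r then (1 : ℤ) else 0) + (if s then (1 : ℤ) else 0) := by
  split_ifs <;> first
    | (exfalso; tauto)
    | norm_num

/-- (1). -/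
theorem Pair.count (h : Pair D B C) :
    (∑ a : V, c D (cap D (Bh C) a)) + (∑ y : V, c D (cap D C y)) ≤
      (∑ a : V, c D (Bh C a)) + ∑ y : V, c D (C y) := by
  simp only [c_eq_sum]
  rw [Finset.sum_comm (f := fun y z => if z ∈ cl D (cap D C y) ∧ z ∉ cap D C y then (1 : ℤ) else 0),
    Finset.sum_comm (f := fun y z => if z ∈ cl D (C y) ∧ z ∉ C y then (1 : ℤ) else 0),
    ← Finset.sum_add_distrib, ← Finset.sum_add_distrib]
  refine Finset.sum_le_sum fun a _ => ?_
  rw [← Finset.sum_add_distrib, ← Finset.sum_add_distrib]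
  refine Finset.sum_le_sum fun y _ => ?_
  -- P1, P2 exclusive
  have hexcl : ¬ ((y ∈ cl D (cap D (Bh C) a) ∧ y ∉ cap D (Bh C) a) ∧
      (a ∈ cl D (cap D C y) ∧ a ∉ cap D C y)) := by
    rintro ⟨⟨h1, h2⟩, h3, h4⟩
    have := h.feas h1 h3
    subst this
    exact h2 (h.self_cap a)
  have hself : ∀ a, a ∈ cap D C a := fun a => mem_cap.2 fun s hs => h.hC s a hs
  have hP1 : (y ∈ cl D (cap D (Bh C) a) ∧ y ∉ cap D (Bh C) a) →
      (y ∈ cl D (Bh C a) ∧ y ∉ Bh C a) ∨ (a ∈ cl D (C y) ∧ a ∉ C y) := by
    rintro ⟨h1, h2⟩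
    rw [mem_cap] at h2
    push Not at h2
    obtain ⟨s, hs, hys⟩ := h2
    rw [mem_Bh] at hys
    push Not at hys
    have hacl : a ∈ cl D (C y) := mem_cl.2 ⟨s, hys.2, hs⟩
    by_cases haC : a ∈ C y
    · left
      have hcapsub : cap D (Bh C) a ⊆ Bh C a := fun x hx => mem_cap.1 hx a (R_refl D a)
      refine ⟨cl_mono hcapsub h1, ?_⟩
      intro hyB
      rcases mem_Bh.1 hyB with h' | h'
      · subst h'
        exact hys.1 (by
          have := h.hBC s y (h.hB s y hs) hys.2
          exact this.symm)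
      · exact h' haC
    · exact Or.inr ⟨hacl, haC⟩
  have hP2 : (a ∈ cl D (cap D C y) ∧ a ∉ cap D C y) →
      (y ∈ cl D (Bh C a) ∧ y ∉ Bh C a) ∨ (a ∈ cl D (C y) ∧ a ∉ C y) := by
    rintro ⟨h1, h2⟩
    rw [mem_cap] at h2
    push Not at h2
    obtain ⟨s, hs, has⟩ := h2
    have hycl : y ∈ cl D (Bh C a) := mem_cl.2 ⟨s, mem_Bh.2 (Or.inr has), hs⟩
    by_cases hyB : y ∈ Bh C a
    · right
      have hcapsub : cap D C y ⊆ C y := fun x hx => mem_cap.1 hx y (R_refl D y)
      refine ⟨cl_mono hcapsub h1, ?_⟩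
      rcases mem_Bh.1 hyB with h' | h'
      · subst h'
        exact absurd (h.hC s y hs) has
      · exact h'
    · exact Or.inl ⟨hycl, hyB⟩
  exact ite4 hexcl hP1 hP2

end pairs

section mins

variable {V : Type*} [Fintype V] [DecidableEq V]

/-- `T` is a minimiser of `c` over `P ⊆ T ⊆ Q`, `Q ∩ S ⊆ T`. -/
structure IsMin (D : OGraph V) (P Q S T : Finset V) : Prop where
  h1 : P ⊆ T
  h2 : T ⊆ Q
  h3 : Q ∩ S ⊆ T
  h4 : ∀ T', P ⊆ T' → T' ⊆ Q → Q ∩ S ⊆ T' → c D T ≤ c D T'

theorem exists_isMin (D : OGraph V) {P Q : Finset V} (S : Finset V) (h : P ⊆ Q) :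
    ∃ T, IsMin D P Q S T := by
  classical
  have hne : ((Finset.univ : Finset (Finset V)).filter fun T =>
      P ⊆ T ∧ T ⊆ Q ∧ Q ∩ S ⊆ T).Nonempty :=
    ⟨Q, mem_filter.2 ⟨mem_univ _, h, Subset.refl _, inter_subset_left⟩⟩
  obtain ⟨T, hT, hmin⟩ := exists_min_image _ (fun T => c D T) hne
  obtain ⟨-, a1, a2, a3⟩ := mem_filter.1 hT
  exact ⟨T, a1, a2, a3, fun T' b1 b2 b3 => hmin T' (mem_filter.2 ⟨mem_univ _, b1, b2, b3⟩)⟩

variable {D : OGraph V} {B C : V → Finset V}

/-- (C). -/
theorem Pair.optC (h : Pair D B C) (hmin : ∀ B' C', Pair D B' C' → o D B C ≤ o D B' C')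
    (y : V) (K : Finset V) (hK : ∀ a ∈ K, y ∈ Bh C a ∧ y ∉ B a) :
    K.card ≤ (cl D K \ cl D (C y)).card := by
  have hdisj : Disjoint (C y) K := by
    rw [Finset.disjoint_left]
    intro a ha haK
    obtain ⟨h1, h2⟩ := hK a haK
    rcases mem_Bh.1 h1 with h1 | h1
    · subst h1
      exact h2 (h.hB y y (R_refl D y))
    · exact h1 ha
  have hp : Pair D B (Function.update C y (C y ∪ K)) := by
    refine ⟨h.hB, ?_, ?_⟩
    · intro a z hz
      by_cases ha : a = y
      · subst ha
        rw [Function.update_self]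
        exact mem_union_left _ (h.hC a z hz)
      · rw [Function.update_of_ne ha]
        exact h.hC a z hz
    · intro a x hx ha
      by_cases hxy : x = y
      · subst hxy
        rw [Function.update_self] at ha
        rcases mem_union.1 ha with ha | ha
        · exact h.hBC a x hx ha
        · exact absurd hx (hK a ha).2
      · rw [Function.update_of_ne hxy] at ha
        exact h.hBC a x hx ha
  have h1 := hmin _ _ hp
  unfold o at h1
  have h2 : ∑ a : V, c D (Function.update C y (C y ∪ K) a) =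
      c D (C y ∪ K) + ∑ a ∈ univ.erase y, c D (C a) := by
    rw [← Finset.add_sum_erase univ _ (mem_univ y), Function.update_self]
    congr 1
    refine Finset.sum_congr rfl fun a ha => ?_
    rw [Function.update_of_ne (Finset.ne_of_mem_erase ha)]
  have h3 : ∑ a : V, c D (C a) = c D (C y) + ∑ a ∈ univ.erase y, c D (C a) :=
    (Finset.add_sum_erase univ _ (mem_univ y)).symm
  rw [h2, h3] at h1
  have h4 : c D (C y) ≤ c D (C y ∪ K) := by linarith
  have h5 : cl D (C y ∪ K) = cl D (C y) ∪ (cl D K \ cl D (C y)) := by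
    rw [cl_union, union_sdiff_self_eq_union]
  have h6 : (cl D (C y ∪ K)).card = (cl D (C y)).card + (cl D K \ cl D (C y)).card := by
    rw [h5]
    exact card_union_of_disjoint disjoint_sdiff
  have h7 : (C y ∪ K).card = (C y).card + K.card := card_union_of_disjoint hdisj
  unfold c at h4
  rw [h6, h7] at h4
  push_cast at h4
  omega

/-- Hall. -/
theorem Pair.hall (h : Pair D B C) (hmin : ∀ B' C', Pair D B' C' → o D B C ≤ o D B' C')
    (y : V) : ∃ f : {a : V // y ∈ Bh C a ∧ y ∉ B a} → V, Function.Injective f ∧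
      ∀ a, R D a.1 (f a) ∧ y ∈ cap D (Bh C) (f a) := by
  classical
  let t : {a : V // y ∈ Bh C a ∧ y ∉ B a} → Finset V := fun a =>
    Finset.univ.filter fun b => R D a.1 b ∧ y ∈ cap D (Bh C) b
  obtain ⟨f, hf, hft⟩ := (Finset.all_card_le_biUnion_card_iff_exists_injective t).1 (by
    intro s
    have h1 := h.optC hmin y (s.map (Function.Embedding.subtype _)) (by
      intro a ha
      obtain ⟨b, -, rfl⟩ := mem_map.1 ha
      exact b.2)
    rw [card_map] at h1
    refine h1.trans (card_le_card ?_)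
    intro a ha
    obtain ⟨h2, h3⟩ := mem_sdiff.1 ha
    obtain ⟨a', ha', hr⟩ := mem_cl.1 h2
    obtain ⟨b, hb, rfl⟩ := mem_map.1 ha'
    rw [mem_biUnion]
    refine ⟨b, hb, ?_⟩
    refine mem_filter.2 ⟨mem_univ _, hr, ?_⟩
    rw [mem_cap]
    intro s' hs'
    rw [mem_Bh]
    right
    intro hc
    exact h3 (mem_cl.2 ⟨s', hc, hs'⟩))
  exact ⟨f, hf, fun a => (mem_filter.1 (hft a)).2⟩

/-- (3) key lemma. -/
theorem key (h : Pair D B C) (hmin : ∀ B' C', Pair D B' C' → o D B C ≤ o D B' C')
    (e d : V → Finset V → Finset V)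
    (he : ∀ a S, IsMin D (B a) (Bh C a) S (e a S))
    (hd : ∀ a S, IsMin D {a} (cap D (Bh C) a) S (d a S)) (S : Finset V) :
    (∑ a : V, c D (e a S)) - (∑ a : V, c D (e a ∅)) ≤
      (∑ a : V, c D (d a S)) - (∑ a : V, c D (d a ∅)) := by
  classical
  induction S using Finset.induction_on with
  | empty => simp
  | insert y S hyS ih =>
    obtain ⟨f, hf, hft⟩ := h.hall hmin y
    have hmono : ∀ a, c D (d a S) ≤ c D (d a (insert y S)) := by
      intro a
      refine (hd a S).h4 _ (hd a _).h1 (hd a _).h2 ?_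
      exact (inter_subset_inter_left (subset_insert y S)).trans (hd a _).h3
    have htriv : ∀ a, ¬ (y ∈ Bh C a ∧ y ∉ B a) → c D (e a (insert y S)) ≤ c D (e a S) := by
      intro a ha
      refine (he a (insert y S)).h4 _ (he a S).h1 (he a S).h2 ?_
      intro z hz
      obtain ⟨h1, h2⟩ := mem_inter.1 hz
      rcases mem_insert.1 h2 with rfl | h2
      · have : z ∈ B a := by
          by_contra hcon
          exact ha ⟨h1, hcon⟩
        exact (he a S).h1 this
      · exact (he a S).h3 (mem_inter.2 ⟨h1, h2⟩)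
    have hmarg : ∀ a a', R D a' a → y ∈ cap D (Bh C) a →
        c D (d a S) + c D (e a' (insert y S)) ≤ c D (d a (insert y S)) + c D (e a' S) := by
      intro a a' hr hy
      have hsubBh : cap D (Bh C) a ⊆ Bh C a' := fun x hx => mem_cap.1 hx a' hr
      have h1 := submod D (d a (insert y S)) (e a' S)
      have h2 : c D (e a' (insert y S)) ≤ c D (d a (insert y S) ∪ e a' S) := by
        refine (he a' (insert y S)).h4 _ ?_ ?_ ?_
        · exact (he a' S).h1.trans subset_union_right
        · exact union_subset ((hd a _).h2.trans hsubBh) (he a' S).h2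
        · intro z hz
          obtain ⟨h3, h4⟩ := mem_inter.1 hz
          rcases mem_insert.1 h4 with rfl | h4
          · refine mem_union_left _ ((hd a _).h3 (mem_inter.2 ⟨hy, mem_insert_self _ _⟩))
          · exact mem_union_right _ ((he a' S).h3 (mem_inter.2 ⟨h3, h4⟩))
      have h3 : c D (d a S) ≤ c D (d a (insert y S) ∩ e a' S) := by
        refine (hd a S).h4 _ ?_ ?_ ?_
        · refine subset_inter (hd a _).h1 ?_
          rw [singleton_subset_iff]
          exact (he a' S).h1 (h.hB a' a hr)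
        · exact inter_subset_left.trans (hd a _).h2
        · refine subset_inter ?_ ?_
          · exact (inter_subset_inter_left (subset_insert y S)).trans (hd a _).h3
          · exact (inter_subset_inter_right hsubBh).trans (he a' S).h3
      linarith
    -- sum
    have hsum : ∑ a : V, (c D (e a (insert y S)) - c D (e a S)) ≤
        ∑ a : V, (c D (d a (insert y S)) - c D (d a S)) := by
      have h1 : ∑ a : V, (c D (e a (insert y S)) - c D (e a S)) ≤
          ∑ a ∈ Finset.univ.filter (fun a => y ∈ Bh C a ∧ y ∉ B a),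
            (c D (e a (insert y S)) - c D (e a S)) := by
        rw [← Finset.sum_filter_add_sum_filter_not univ (fun a => y ∈ Bh C a ∧ y ∉ B a)]
        have : ∑ a ∈ Finset.univ.filter (fun a => ¬ (y ∈ Bh C a ∧ y ∉ B a)),
            (c D (e a (insert y S)) - c D (e a S)) ≤ 0 := by
          refine Finset.sum_nonpos fun a ha => ?_
          have := htriv a (mem_filter.1 ha).2
          linarith
        linarith
      have h2 : ∑ a ∈ Finset.univ.filter (fun a => y ∈ Bh C a ∧ y ∉ B a),
            (c D (e a (insert y S)) - c D (e a S)) =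
          ∑ a : {a : V // y ∈ Bh C a ∧ y ∉ B a},
            (c D (e a.1 (insert y S)) - c D (e a.1 S)) := by
        rw [← Finset.sum_subtype_eq_sum_filter, Finset.subtype_univ]
      have h3 : ∑ a : {a : V // y ∈ Bh C a ∧ y ∉ B a},
            (c D (e a.1 (insert y S)) - c D (e a.1 S)) ≤
          ∑ a : {a : V // y ∈ Bh C a ∧ y ∉ B a},
            (c D (d (f a) (insert y S)) - c D (d (f a) S)) := by
        refine Finset.sum_le_sum fun a _ => ?_
        have := hmarg (f a) a.1 (hft a).1 (hft a).2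
        linarith
      have h4 : ∑ a : {a : V // y ∈ Bh C a ∧ y ∉ B a},
            (c D (d (f a) (insert y S)) - c D (d (f a) S)) =
          ∑ a ∈ Finset.univ.image f, (c D (d a (insert y S)) - c D (d a S)) := by
        rw [Finset.sum_image (fun a _ b _ hab => hf hab)]
      have h5 : ∑ a ∈ Finset.univ.image f, (c D (d a (insert y S)) - c D (d a S)) ≤
          ∑ a : V, (c D (d a (insert y S)) - c D (d a S)) := by
        refine Finset.sum_le_sum_of_subset_of_nonneg (subset_univ _) fun a _ _ => ?_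
        have := hmono a
        linarith
      linarith
    rw [Finset.sum_sub_distrib, Finset.sum_sub_distrib] at hsum
    linarith

/-- The main theorem, contradiction form. -/
theorem no_arcMin [Nonempty V] (hD : ArcMin D) : False := by
  classical
  obtain ⟨B, C, h, hmin⟩ := exists_minPair D
  choose e he using fun (a : V) (S : Finset V) => exists_isMin D S (h.sub_Bh a)
  choose d hd using fun (a : V) (S : Finset V) =>
    exists_isMin D S (singleton_subset_iff.2 (h.self_cap a))
  have hkey := key h hmin e d he hd univ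
  have hcount := h.count
  have he1 : ∀ a, e a univ = Bh C a := by
    intro a
    refine Subset.antisymm (he a univ).h2 ?_
    have := (he a univ).h3
    rwa [inter_univ] at this
  have hd1 : ∀ a, d a univ = cap D (Bh C) a := by
    intro a
    refine Subset.antisymm (hd a univ).h2 ?_
    have := (hd a univ).h3
    rwa [inter_univ] at this
  have he0 : ∀ a, c D (e a ∅) ≤ c D (B a) := by
    intro a
    exact (he a ∅).h4 _ (Subset.refl _) (h.sub_Bh a) (by simp)
  simp only [he1, hd1] at hkey
  have he0' : ∑ a : V, c D (e a ∅) ≤ ∑ a : V, c D (B a) := Finset.sum_le_sum fun a _ => he0 a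
  -- the new pair
  have hp : Pair D (fun a => cl D (d a ∅)) (fun y => cl D (cap D C y)) := by
    refine ⟨?_, ?_, ?_⟩
    · intro a z hz
      exact mem_cl.2 ⟨a, (hd a ∅).h1 (mem_singleton_self a), hz⟩
    · intro a z hz
      exact mem_cl.2 ⟨a, mem_cap.2 fun s hs => h.hC s a hs, hz⟩
    · intro a x hx ha
      exact h.feas (cl_mono (hd a ∅).h2 hx) ha
  have hle := hmin _ _ hp
  unfold o at hle
  have hY : ∑ y : V, c D (cl D (cap D C y)) ≤ ∑ y : V, c D (cap D C y) :=
    Finset.sum_le_sum fun y _ => G_le hD _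
  have hX : ∀ a ∈ (univ : Finset V), c D (cl D (d a ∅)) ≤ c D (d a ∅) := fun a _ => G_le hD _
  have hXs := Finset.sum_le_sum hX
  have heq : ∑ a : V, c D (cl D (d a ∅)) = ∑ a : V, c D (d a ∅) := by
    refine le_antisymm hXs ?_
    linarith
  have heq' := (Finset.sum_eq_sum_iff_of_le hX).1 heq
  have hclosed : ∀ a, cl D (d a ∅) = d a ∅ := by
    intro a
    by_contra hcon
    have h1 := G_strict hD _ hcon
    have h2 := heq' a (mem_univ a)
    linarith
  -- a minimal closed nonempty set
  have hne : ((Finset.univ : Finset (Finset V)).filter fun Z =>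
      Z.Nonempty ∧ cl D Z = Z).Nonempty := by
    refine ⟨univ, mem_filter.2 ⟨mem_univ _, univ_nonempty, ?_⟩⟩
    exact Subset.antisymm (subset_univ _) (subset_cl D _)
  obtain ⟨Z, hZ, hZmin⟩ := exists_min_image _ (fun Z => Z.card) hne
  obtain ⟨-, ⟨b, hb⟩, hZcl⟩ := mem_filter.1 hZ
  have hpos : 0 < (N1 D b).card := by
    have := hD.1 b
    omega
  obtain ⟨a, ha⟩ := card_pos.1 hpos
  have hba : D.arc b a := mem_N1.1 ha
  have haZ : a ∈ Z := by
    rw [← hZcl]
    exact mem_cl.2 ⟨b, hb, Or.inr hba⟩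
  have haX : a ∈ d a ∅ := (hd a ∅).h1 (mem_singleton_self a)
  have hint : cl D (Z ∩ d a ∅) = Z ∩ d a ∅ := by
    refine Subset.antisymm ?_ (subset_cl D _)
    refine subset_inter ?_ ?_
    · exact (cl_mono inter_subset_left).trans hZcl.subset
    · exact (cl_mono inter_subset_right).trans (hclosed a).subset
  have hmem : (Z ∩ d a ∅) ∈ (Finset.univ : Finset (Finset V)).filter fun Z =>
      Z.Nonempty ∧ cl D Z = Z :=
    mem_filter.2 ⟨mem_univ _, ⟨a, mem_inter.2 ⟨haZ, haX⟩⟩, hint⟩
  have hcard := hZmin _ hmem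
  have hZeq : Z ∩ d a ∅ = Z := eq_of_subset_of_card_le inter_subset_left hcard
  have hbX : b ∈ d a ∅ := by
    rw [← hZeq] at hb
    exact (mem_inter.1 hb).2
  have hbB : b ∈ Bh C a := mem_cap.1 ((hd a ∅).h2 hbX) a (R_refl D a)
  rcases mem_Bh.1 hbB with h' | h'
  · subst h'
    exact D.loopless _ hba
  · exact h' (h.hC b a (Or.inr hba))

end mins

/-- **Seymour's second neighbourhood conjecture.** -/
theorem seymour {V : Type*} [Fintype V] [Nonempty V] (D : OGraph V) :
    ∃ v, (N1 D v).card ≤ (N2 D v).card := by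
  classical
  by_contra hcon
  push Not at hcon
  obtain ⟨D', hD'⟩ := exists_arcMin (D := D) hcon
  exact no_arcMin hD'

end Vale.Agent.P038.H433
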